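import Mathlib

/-!
# P036: small triangles in planar sets of large additive energy

A weighted Cauchy-Schwarz over a grid gives a short difference `d` with many representations;
two of the translated segments then have close offsets in the direction normal to `d`.
-/

open Classical Finset
open scoped Pointwise

noncomputable section

namespace Vale.P036.EnergyBound

/-- Twice the signed area of a triangle. -/
def twiceArea (p q r : ℝ × ℝ) : ℝ := (q.1 - p.1) * (r.2 - p.2) - (q.2 - p.2) * (r.1 - p.1)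

/-- The representations of a difference. -/
def reps (P : Finset (ℝ × ℝ)) (d : ℝ × ℝ) : Finset (ℝ × ℝ) := P.filter (fun b => b + d ∈ P)

/-- Among many reals in a short range two are close. -/
lemma exists_close {ι : Type*} (X : Finset ι) (φ : ι → ℝ) {W : ℝ} (hW : 0 < W)
    (hX : 2 ≤ X.card) (hφ : ∀ x ∈ X, ∀ y ∈ X, φ x - φ y ≤ W) :
    ∃ x ∈ X, ∃ y ∈ X, x ≠ y ∧ |φ x - φ y| ≤ 2 * W / (X.card : ℝ) := by
  rcases hX.eq_or_lt with h2 | h3
  · obtain ⟨x, hx, y, hy, hxy⟩ := one_lt_card.1 (show 1 < X.card by omega)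
    refine ⟨x, hx, y, hy, hxy, ?_⟩
    rw [← h2, Nat.cast_ofNat, mul_div_cancel_left₀ _ two_ne_zero]
    exact abs_le.2 ⟨by linarith [hφ y hy x hx], hφ x hx y hy⟩
  · obtain ⟨m, hm, hmin⟩ := X.exists_min_image φ (card_pos.1 (by omega))
    set δ := 2 * W / (X.card : ℝ) with hδ
    have hc : (0 : ℝ) < (X.card : ℝ) := Nat.cast_pos.2 (by omega)
    have hδ0 : 0 < δ := by positivity
    have hmap : ∀ x ∈ X, ⌊(φ x - φ m) / δ⌋₊ ∈ range (X.card / 2 + 1) := by
      intro x hx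
      rw [mem_range, Nat.lt_add_one_iff]
      rw [Nat.le_div_iff_mul_le two_pos]
      have h1 : (⌊(φ x - φ m) / δ⌋₊ : ℝ) ≤ (φ x - φ m) / δ :=
        Nat.floor_le (div_nonneg (by linarith [hmin x hx]) hδ0.le)
      have h2 : (φ x - φ m) / δ ≤ (X.card : ℝ) / 2 := by
        rw [div_le_iff₀ hδ0, hδ]
        have : (X.card : ℝ) / 2 * (2 * W / (X.card : ℝ)) = W := by field_simp
        rw [this]
        exact hφ x hx m hm
      exact_mod_cast (show (⌊(φ x - φ m) / δ⌋₊ : ℝ) * 2 ≤ (X.card : ℝ) by linarith)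
    obtain ⟨x, hx, y, hy, hxy, he⟩ :=
      exists_ne_map_eq_of_card_lt_of_maps_to (by rw [card_range]; omega) hmap
    refine ⟨x, hx, y, hy, hxy, ?_⟩
    have hfx := Nat.floor_le (div_nonneg (show 0 ≤ φ x - φ m by linarith [hmin x hx]) hδ0.le)
    have hfy := Nat.floor_le (div_nonneg (show 0 ≤ φ y - φ m by linarith [hmin y hy]) hδ0.le)
    have hgx := Nat.lt_floor_add_one ((φ x - φ m) / δ)
    have hgy := Nat.lt_floor_add_one ((φ y - φ m) / δ)
    rw [he] at hfx hgx
    rw [le_div_iff₀ hδ0] at hfx hfy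
    rw [div_lt_iff₀ hδ0] at hgx hgy
    exact abs_le.2 ⟨by linarith, by linarith⟩

variable {P : Finset (ℝ × ℝ)}

lemma abs_cross_le {a b c e A B : ℝ} (ha : |a| ≤ A) (hb : |b| ≤ A) (hc : |c| ≤ B) (he : |e| ≤ B) :
    |a * e - b * c| ≤ 2 * (A * B) := by
  calc |a * e - b * c| ≤ |a * e| + |b * c| := abs_sub _ _
    _ ≤ A * B + A * B := by
        rw [abs_mul, abs_mul]
        exact add_le_add (mul_le_mul ha he (abs_nonneg _) ((abs_nonneg _).trans ha))
          (mul_le_mul hb hc (abs_nonneg _) ((abs_nonneg _).trans hb))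
    _ = _ := by ring

/-- A short difference with many representations gives a small triangle. -/
lemma small_of_popular (hbox : ∀ p ∈ P, (0 ≤ p.1 ∧ p.1 ≤ 1) ∧ (0 ≤ p.2 ∧ p.2 ≤ 1))
    (hP : 3 ≤ P.card) {d : ℝ × ℝ} (hd : d ≠ 0) {r : ℝ} (hr : 0 < r) (h1 : |d.1| ≤ r)
    (h2 : |d.2| ≤ r) (hne : (reps P d).Nonempty) :
    ∃ p ∈ P, ∃ q ∈ P, ∃ s ∈ P, p ≠ q ∧ p ≠ s ∧ q ≠ s ∧
      |twiceArea p q s| ≤ 4 * r / ((reps P d).card : ℝ) := by
  set X := reps P d with hX
  have hXP : ∀ x ∈ X, x ∈ P ∧ x + d ∈ P := fun x hx => mem_filter.1 hx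
  have hdist : ∀ x : ℝ × ℝ, x ≠ x + d := fun x h => hd (by simpa using h)
  have hrange : ∀ x ∈ P, ∀ y ∈ P, |d.1 * (x.2 - y.2) - d.2 * (x.1 - y.1)| ≤ 2 * r := by
    intro x hx y hy
    have hx' := hbox x hx
    have hy' := hbox y hy
    refine (abs_cross_le (B := 1) h1 h2 (abs_le.2 ⟨by linarith, by linarith⟩)
      (abs_le.2 ⟨by linarith, by linarith⟩)).trans_eq (by ring)
  have harea : ∀ x y : ℝ × ℝ,
      twiceArea x (x + d) y = d.1 * (y.2 - x.2) - d.2 * (y.1 - x.1) := by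
    intro x y
    simp only [twiceArea, Prod.fst_add, Prod.snd_add]
    ring
  rcases Nat.lt_or_ge X.card 2 with hcard | hcard
  · obtain ⟨x, hx⟩ := hne
    have hc1 : X.card = 1 := by
      have := card_pos.2 (⟨x, hx⟩ : X.Nonempty)
      omega
    obtain ⟨s, hs, hs'⟩ := exists_mem_notMem_of_card_lt_card
      (s := ({x, x + d} : Finset (ℝ × ℝ))) (t := P) (lt_of_le_of_lt card_le_two (by omega))
    simp only [mem_insert, mem_singleton, not_or] at hs'
    refine ⟨x, (hXP x hx).1, x + d, (hXP x hx).2, s, hs, hdist x, fun h => hs'.1 h.symm,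
      fun h => hs'.2 h.symm, ?_⟩
    rw [harea, hc1, Nat.cast_one, div_one]
    linarith [hrange s hs x (hXP x hx).1]
  · obtain ⟨x, hx, y, hy, hxy, hclose⟩ := exists_close X (fun z => d.1 * z.2 - d.2 * z.1)
      (W := 2 * r) (by linarith) hcard (fun u hu v hv => by
        have h := (abs_le.1 (hrange u (hXP u hu).1 v (hXP v hv).1)).2
        linarith)
    have hle : (0 : ℝ) ≤ 4 * r / (X.card : ℝ) := by positivity
    by_cases hyx : y = x + d
    · refine ⟨x, (hXP x hx).1, x + d, (hXP x hx).2, y + d, (hXP y hy).2, hdist x, ?_, ?_, ?_⟩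
      · rw [hyx, add_assoc]
        intro h
        refine hd (Prod.ext ?_ ?_)
        · have := congrArg Prod.fst h
          simp at this ⊢
          linarith
        · have := congrArg Prod.snd h
          simp at this ⊢
          linarith
      · rw [hyx]
        exact hdist _
      · rw [harea, hyx]
        simp only [Prod.fst_add, Prod.snd_add]
        rw [show d.1 * (x.2 + d.2 + d.2 - x.2) - d.2 * (x.1 + d.1 + d.1 - x.1) = 0 by ring, abs_zero]
        exact hle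
    · refine ⟨x, (hXP x hx).1, x + d, (hXP x hx).2, y, (hXP y hy).1, hdist x, hxy,
        fun h => hyx h.symm, ?_⟩
      rw [harea, abs_sub_comm] at *
      refine le_trans (le_of_eq ?_) (hclose.trans_eq (by ring))
      rw [abs_sub_comm]
      ring_nf

/-- The grid cell of a point. -/
def cell (s : ℕ) (p : ℝ × ℝ) : ℕ × ℕ := (⌊p.1 * (s : ℝ)⌋₊, ⌊p.2 * (s : ℝ)⌋₊)

lemma cell_close {s : ℕ} (hs : 0 < s) {p q : ℝ} (hp : 0 ≤ p) (hq : 0 ≤ q)
    (h : ⌊p * (s : ℝ)⌋₊ = ⌊q * (s : ℝ)⌋₊) : |p - q| ≤ 1 / (s : ℝ) := by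
  have hs' : (0 : ℝ) < (s : ℝ) := Nat.cast_pos.2 hs
  have a := Nat.floor_le (mul_nonneg hp hs'.le)
  have b := Nat.lt_floor_add_one (p * (s : ℝ))
  have c := Nat.floor_le (mul_nonneg hq hs'.le)
  have e := Nat.lt_floor_add_one (q * (s : ℝ))
  rw [h] at a b
  rw [le_div_iff₀ hs']
  rw [show |p - q| * (s : ℝ) = |(p - q) * (s : ℝ)| by rw [abs_mul, abs_of_pos hs'], sub_mul]
  exact abs_le.2 ⟨by linarith, by linarith⟩

lemma pair_sols (P : Finset (ℝ × ℝ)) (a a' : ℝ × ℝ) :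
    ((P ×ˢ P).filter (fun b => a + b.1 = a' + b.2)).card = (reps P (a - a')).card := by
  refine (card_nbij' (fun b => b.1) (fun b => (b, b + (a - a'))) ?_ ?_ ?_ ?_)
  · intro b hb
    simp only [mem_coe, mem_filter, mem_product, reps] at hb ⊢
    refine ⟨hb.1.1, ?_⟩
    have e : b.1 + (a - a') = b.2 := by
      rw [add_sub, sub_eq_iff_eq_add, add_comm b.1, add_comm b.2]
      exact hb.2
    rw [e]
    exact hb.1.2
  · intro b hb
    simp only [mem_coe, mem_filter, mem_product, reps] at hb ⊢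
    exact ⟨⟨hb.1, hb.2⟩, by abel⟩
  · intro b hb
    simp only [mem_coe, mem_filter, mem_product] at hb
    refine Prod.ext rfl ?_
    have := hb.2
    show b.1 + (a - a') = b.2
    rw [add_sub, sub_eq_iff_eq_add, add_comm b.1, add_comm b.2]
    exact hb.2
  · intro b _
    rfl

lemma energy_eq_sum_pairs (A P : Finset (ℝ × ℝ)) :
    addEnergy A P = ∑ a ∈ A ×ˢ A, (reps P (a.1 - a.2)).card := by
  simp_rw [← pair_sols, addEnergy, card_filter, sum_product]

/-- Energy inside a cell against the whole set. -/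
lemma energy_cell_le (A P : Finset (ℝ × ℝ)) {T : ℝ} (hT : 0 ≤ T)
    (h : ∀ a ∈ A, ∀ a' ∈ A, a ≠ a' → ((reps P (a - a')).card : ℝ) ≤ T) :
    (addEnergy A P : ℝ) ≤ (P.card : ℝ) * (A.card : ℝ) + (A.card : ℝ) ^ 2 * T := by
  rw [energy_eq_sum_pairs, Nat.cast_sum]
  calc ∑ a ∈ A ×ˢ A, ((reps P (a.1 - a.2)).card : ℝ)
      ≤ ∑ a ∈ A ×ˢ A, ((if a.1 = a.2 then (P.card : ℝ) else 0) + T) := by
        refine sum_le_sum fun a ha => ?_
        rw [mem_product] at ha
        split_ifs with he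
        · have : ((reps P (a.1 - a.2)).card : ℝ) ≤ (P.card : ℝ) :=
            Nat.cast_le.2 (card_filter_le _ _)
          linarith
        · linarith [h a.1 ha.1 a.2 ha.2 he]
    _ = _ := by
        rw [sum_add_distrib, sum_product]
        simp [sum_ite_eq, sq]
        ring

/-- Some short difference has many representations. -/
lemma exists_popular (hbox : ∀ p ∈ P, (0 ≤ p.1 ∧ p.1 ≤ 1) ∧ (0 ≤ p.2 ∧ p.2 ≤ 1))
    (hP : 0 < P.card) {s : ℕ} (hs : 0 < s)
    (hE : 4 * (P.card : ℝ) ^ 2 * ((s : ℝ) + 1) ^ 2 ≤ (addEnergy P P : ℝ)) :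
    ∃ d : ℝ × ℝ, d ≠ 0 ∧ |d.1| ≤ 1 / (s : ℝ) ∧ |d.2| ≤ 1 / (s : ℝ) ∧
      (addEnergy P P : ℝ) / (8 * (P.card : ℝ) ^ 2) ≤ ((reps P d).card : ℝ) := by
  set n : ℝ := (P.card : ℝ) with hn
  set E : ℝ := (addEnergy P P : ℝ) with hEdef
  set T := E / (8 * n ^ 2) with hT
  by_contra hne
  push Not at hne
  have hn0 : 0 < n := Nat.cast_pos.2 hP
  have hT0 : 0 ≤ T := by positivity
  set I := range (s + 1) ×ˢ range (s + 1) with hI
  have hIcard : (I.card : ℝ) = ((s : ℝ) + 1) ^ 2 := by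
    rw [hI, card_product, card_range]; push_cast; ring
  have hI0 : 0 < (I.card : ℝ) := by rw [hIcard]; positivity
  set L := (I.card : ℝ) with hL
  let A : ℕ × ℕ → Finset (ℝ × ℝ) := fun i => P.filter (fun p => cell s p = i)
  have hmem : ∀ p ∈ P, cell s p ∈ I := by
    intro p hp
    obtain ⟨⟨a, b⟩, c, e⟩ := hbox p hp
    have hf : ∀ x : ℝ, x ≤ 1 → ⌊x * (s : ℝ)⌋₊ ∈ range (s + 1) := fun x hx => by
      rw [mem_range, Nat.lt_add_one_iff]
      refine Nat.floor_le_of_le ?_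
      exact mul_le_of_le_one_left (Nat.cast_nonneg s) hx
    rw [hI, mem_product]
    exact ⟨hf _ b, hf _ e⟩
  have hshort : ∀ i, ∀ a ∈ A i, ∀ a' ∈ A i, a ≠ a' → ((reps P (a - a')).card : ℝ) ≤ T := by
    intro i a ha a' ha' haa
    simp only [A, mem_filter] at ha ha'
    have he : cell s a = cell s a' := ha.2.trans ha'.2.symm
    simp only [cell, Prod.mk.injEq] at he
    exact (hne (a - a') (sub_ne_zero.2 haa)
      (by rw [Prod.fst_sub]; exact cell_close hs (hbox a ha.1).1.1 (hbox a' ha'.1).1.1 he.1)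
      (by rw [Prod.snd_sub]; exact cell_close hs (hbox a ha.1).2.1 (hbox a' ha'.1).2.1 he.2)).le
  set w : ℕ × ℕ → ℝ := fun i => 1 + ((A i).card : ℝ) * L / n with hw
  have hw0 : ∀ i, 0 < w i := fun i => by simp only [hw]; positivity
  have hsumA : ∑ i ∈ I, ((A i).card : ℝ) = n := by
    rw [hn, card_eq_sum_card_fiberwise hmem, Nat.cast_sum]
  have hwsum : ∑ i ∈ I, w i = 2 * L := by
    simp only [hw]
    rw [sum_add_distrib, ← sum_div, ← sum_mul, hsumA, sum_const, nsmul_eq_mul, mul_one]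
    field_simp
    ring
  -- the representations of a sum, split by the cell of the first summand
  let c : ℝ × ℝ → ℕ × ℕ → ℝ := fun x i =>
    (((A i) ×ˢ P).filter (fun ab => ab.1 + ab.2 = x)).card
  have hsplit : ∀ x, (((P ×ˢ P).filter (fun ab => ab.1 + ab.2 = x)).card : ℝ) =
      ∑ i ∈ I, c x i := by
    intro x
    simp only [c]
    rw [← Nat.cast_sum, card_eq_sum_card_fiberwise (f := fun ab : (ℝ × ℝ) × ℝ × ℝ => cell s ab.1)
      (t := I) (fun ab hab => hmem _ (mem_product.1 (mem_filter.1 hab).1).1)]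
    refine congrArg Nat.cast (sum_congr rfl fun i _ => congrArg card ?_)
    ext ab
    simp only [A, mem_filter, mem_product]
    tauto
  have hcell : ∀ i ∈ I, ∑ x ∈ P + P, c x i ^ 2 = (addEnergy (A i) P : ℝ) := by
    intro i _
    simp only [c]
    rw [addEnergy_eq_sum_sq', Nat.cast_sum]
    push_cast
    refine (sum_subset (add_subset_add_right (filter_subset _ _)) fun x _ hx => ?_).symm
    rw [filter_eq_empty_iff.2 fun ab hab (h : ab.1 + ab.2 = x) => hx
      (h ▸ add_mem_add (mem_product.1 hab).1 (mem_product.1 hab).2)]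
    simp
  have key : E ≤ 2 * L * ∑ i ∈ I, (addEnergy (A i) P : ℝ) / w i := by
    have hE' : E = ∑ x ∈ P + P, (∑ i ∈ I, c x i) ^ 2 := by
      rw [hEdef, addEnergy_eq_sum_sq', Nat.cast_sum]
      refine sum_congr rfl fun x _ => ?_
      rw [← hsplit x, Nat.cast_pow]
    rw [hE']
    calc ∑ x ∈ P + P, (∑ i ∈ I, c x i) ^ 2
        ≤ ∑ x ∈ P + P, 2 * L * ∑ i ∈ I, c x i ^ 2 / w i := sum_le_sum fun x _ => by
          have h := Finset.sq_sum_div_le_sum_sq_div I (c x) (fun i _ => hw0 i)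
          rw [hwsum, div_le_iff₀ (by linarith)] at h
          linarith
      _ = _ := by
          rw [← mul_sum, sum_comm]
          exact congrArg _ (sum_congr rfl fun i hi => by rw [← sum_div, hcell i hi])
  have hper : ∀ i ∈ I, (addEnergy (A i) P : ℝ) / w i ≤
      n * ((A i).card : ℝ) + ((A i).card : ℝ) * (n / L) * T := by
    intro i _
    set m : ℝ := ((A i).card : ℝ) with hm
    have hm0 : 0 ≤ m := Nat.cast_nonneg _
    rw [div_le_iff₀ (hw0 i)]
    refine (energy_cell_le (A i) P hT0 (hshort i)).trans ?_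
    rw [← hn, ← hm]
    simp only [hw, ← hm]
    have e : (n * m + m * (n / L) * T) * (1 + m * L / n) =
        n * m + m ^ 2 * T + (m ^ 2 * L + m * (n / L) * T) := by field_simp; ring
    rw [e]
    have : 0 ≤ m ^ 2 * L + m * (n / L) * T := by positivity
    linarith
  have h2 : E ≤ 2 * L * n ^ 2 + 2 * n ^ 2 * T := by
    refine (key.trans (mul_le_mul_of_nonneg_left (sum_le_sum hper) (by linarith))).trans_eq ?_
    rw [sum_add_distrib, ← mul_sum, ← sum_mul, ← sum_mul, hsumA]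
    field_simp
  have h3 : 2 * n ^ 2 * T = E / 4 := by rw [hT]; field_simp; ring
  rw [← hIcard] at hE
  have h5 : 0 < n ^ 2 * L := by positivity
  linarith

/-- A triangle in the unit square has area at most one. -/
lemma twiceArea_le {p q r : ℝ × ℝ} (hbox : ∀ x ∈ ({p, q, r} : Finset (ℝ × ℝ)),
    (0 ≤ x.1 ∧ x.1 ≤ 1) ∧ (0 ≤ x.2 ∧ x.2 ≤ 1)) : |twiceArea p q r| ≤ 2 := by
  have hp := hbox p (by simp)
  have hq := hbox q (by simp)
  have hr := hbox r (by simp)
  refine (abs_cross_le (A := 1) (B := 1) (abs_le.2 ⟨by linarith, by linarith⟩)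
    (abs_le.2 ⟨by linarith, by linarith⟩) (abs_le.2 ⟨by linarith, by linarith⟩)
    (abs_le.2 ⟨by linarith, by linarith⟩)).trans (by norm_num)

/-- A set of large additive energy spans a small triangle. -/
theorem small_of_energy (P : Finset (ℝ × ℝ))
    (hbox : ∀ p ∈ P, (0 ≤ p.1 ∧ p.1 ≤ 1) ∧ (0 ≤ p.2 ∧ p.2 ≤ 1)) (hP : 3 ≤ P.card) :
    ∃ p ∈ P, ∃ q ∈ P, ∃ s ∈ P, p ≠ q ∧ p ≠ s ∧ q ≠ s ∧
      |twiceArea p q s| / 2 ≤
        128 * (P.card : ℝ) ^ 3 / ((addEnergy P P : ℝ) * Real.sqrt (addEnergy P P : ℝ)) := by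
  set n : ℝ := (P.card : ℝ) with hn
  set E : ℝ := (addEnergy P P : ℝ) with hE
  have hn0 : 0 < n := Nat.cast_pos.2 (by omega)
  have hE0 : 0 < E := Nat.cast_pos.2 (addEnergy_self_pos (card_pos.1 (by omega)))
  set S := Real.sqrt E with hS
  have hS0 : 0 < S := Real.sqrt_pos.2 hE0
  have hSS : S * S = E := Real.mul_self_sqrt hE0.le
  rcases lt_or_ge S (4 * n) with hsmall | hbig
  · obtain ⟨p, q, r, hp, hq, hr, hpq, hpr, hqr⟩ := two_lt_card_iff.1 (show 2 < P.card by omega)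
    refine ⟨p, hp, q, hq, r, hr, hpq, hpr, hqr, ?_⟩
    have h1 : |twiceArea p q r| ≤ 2 := twiceArea_le (fun x hx => hbox x (by
      simp only [mem_insert, mem_singleton] at hx
      rcases hx with rfl | rfl | rfl <;> assumption))
    have h2 : E * S ≤ (4 * n) ^ 3 := by
      rw [← hSS, show S * S * S = S ^ 3 by ring]
      exact pow_le_pow_left₀ hS0.le hsmall.le 3
    have h3 : (1 : ℝ) ≤ 128 * n ^ 3 / (E * S) := by
      rw [le_div_iff₀ (by positivity)]
      linarith [pow_pos hn0 3]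
    linarith
  · set q := S / (2 * n) with hq
    have hq2 : 2 ≤ q := by rw [hq, le_div_iff₀ (by linarith)]; linarith
    set m := ⌊q⌋₊ with hm
    have hm2 : 2 ≤ m := Nat.le_floor (by exact_mod_cast hq2)
    have hmq : (m : ℝ) ≤ q := Nat.floor_le (by linarith)
    have hmlt := Nat.lt_floor_add_one q
    rw [← hm] at hmlt
    obtain ⟨k, hk⟩ | hk : (∃ k, m = k + 1) ∨ m = 0 :=
      (Nat.eq_zero_or_pos m).symm.imp_left fun h => ⟨m - 1, by omega⟩
    · rw [hk] at hmq hmlt hm2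
      have hk0 : 0 < k := by omega
      have hk' : (1 : ℝ) ≤ (k : ℝ) := by exact_mod_cast hk0
      push_cast at hmq hmlt
      have hqk : q / 4 ≤ (k : ℝ) := by linarith
      have hEk : 4 * n ^ 2 * ((k : ℝ) + 1) ^ 2 ≤ E := by
        have h := pow_le_pow_left₀ (by linarith) hmq 2
        have e : q ^ 2 * (4 * n ^ 2) = E := by
          rw [hq, ← hSS]; field_simp; ring
        nlinarith [sq_nonneg n]
      obtain ⟨d, hd, hd1, hd2, hrep⟩ := exists_popular hbox (by omega) hk0 hEk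
      have hpos : (0 : ℝ) < ((reps P d).card : ℝ) := lt_of_lt_of_le (by positivity) hrep
      obtain ⟨p, hp, x, hx, y, hy, h1, h2, h3, harea⟩ := small_of_popular hbox hP hd
        (r := 1 / (k : ℝ)) (by positivity) hd1 hd2 (card_pos.1 (Nat.cast_pos.1 hpos))
      refine ⟨p, hp, x, hx, y, hy, h1, h2, h3, ?_⟩
      have hr : 1 / (k : ℝ) ≤ 8 * n / S := by
        rw [div_le_div_iff₀ (by linarith) hS0]
        have : S = 2 * n * q := by rw [hq]; field_simp
        nlinarith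
      calc |twiceArea p x y| / 2 ≤ 4 * (1 / (k : ℝ)) / ((reps P d).card : ℝ) / 2 := by linarith
        _ ≤ 4 * (8 * n / S) / (E / (8 * n ^ 2)) / 2 := by
            gcongr
        _ = _ := by field_simp; ring
    · omega

/-- The energy of a set against its translates and reflection. -/
lemma addEnergy_neg (P : Finset (ℝ × ℝ)) : addEnergy P (-P) = addEnergy P P := by
  refine card_nbij' (fun x => (x.1, (-x.2.2, -x.2.1))) (fun x => (x.1, (-x.2.2, -x.2.1)))
    ?_ ?_ ?_ ?_ <;> intro x hx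
  · simp only [mem_coe, mem_filter, mem_product, mem_neg'] at hx ⊢
    refine ⟨⟨hx.1.1, hx.1.2.2, hx.1.2.1⟩, ?_⟩
    rw [← sub_eq_add_neg, ← sub_eq_add_neg, sub_eq_sub_iff_add_eq_add]
    exact hx.2
  · simp only [mem_coe, mem_filter, mem_product, mem_neg', neg_neg] at hx ⊢
    refine ⟨⟨hx.1.1, hx.1.2.2, hx.1.2.1⟩, ?_⟩
    rw [← sub_eq_add_neg, ← sub_eq_add_neg, sub_eq_sub_iff_add_eq_add]
    exact hx.2
  · simp
  · simp

/-- Energy against sumset or difference set. -/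
lemma energy_to_card {P : Finset (ℝ × ℝ)} (hP : 0 < P.card) {D : ℕ}
    (hD : P.card ^ 4 ≤ D * addEnergy P P) :
    128 * (P.card : ℝ) ^ 3 / ((addEnergy P P : ℝ) * Real.sqrt (addEnergy P P : ℝ)) ≤
      128 * ((D : ℝ) * Real.sqrt (D : ℝ)) / (P.card : ℝ) ^ 3 := by
  set n : ℝ := (P.card : ℝ) with hn
  set E : ℝ := (addEnergy P P : ℝ) with hE
  have hn0 : 0 < n := Nat.cast_pos.2 hP
  have hE0 : 0 < E := Nat.cast_pos.2 (addEnergy_self_pos (card_pos.1 hP))
  have h : n ^ 4 ≤ (D : ℝ) * E := by rw [hn, hE]; exact_mod_cast hD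
  have h2 : n ^ 2 ≤ Real.sqrt (D : ℝ) * Real.sqrt E := by
    rw [← Real.sqrt_mul (Nat.cast_nonneg D), ← Real.sqrt_sq (sq_nonneg n)]
    exact Real.sqrt_le_sqrt (by linarith)
  rw [div_le_div_iff₀ (by positivity) (by positivity)]
  have h3 := mul_le_mul h h2 (sq_nonneg n) (by positivity)
  linarith

/-- A small sumset spans a small triangle. -/
theorem small_of_sumset (P : Finset (ℝ × ℝ))
    (hbox : ∀ p ∈ P, (0 ≤ p.1 ∧ p.1 ≤ 1) ∧ (0 ≤ p.2 ∧ p.2 ≤ 1)) (hP : 3 ≤ P.card) :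
    ∃ p ∈ P, ∃ q ∈ P, ∃ s ∈ P, p ≠ q ∧ p ≠ s ∧ q ≠ s ∧
      |twiceArea p q s| / 2 ≤
        128 * (P.card : ℝ) ^ 3 / ((addEnergy P P : ℝ) * Real.sqrt (addEnergy P P : ℝ)) ∧
      |twiceArea p q s| / 2 ≤
        128 * (((P + P).card : ℝ) * Real.sqrt ((P + P).card : ℝ)) / (P.card : ℝ) ^ 3 ∧
      |twiceArea p q s| / 2 ≤
        128 * (((P - P).card : ℝ) * Real.sqrt ((P - P).card : ℝ)) / (P.card : ℝ) ^ 3 := by
  obtain ⟨p, hp, q, hq, s, hs, h1, h2, h3, h⟩ := small_of_energy P hbox hP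
  refine ⟨p, hp, q, hq, s, hs, h1, h2, h3, h,
    h.trans (energy_to_card (by omega) ?_), h.trans (energy_to_card (by omega) ?_)⟩
  · have := le_card_add_mul_addEnergy P P
    rwa [← pow_add] at this
  · have := le_card_add_mul_addEnergy P (-P)
    rwa [card_neg, ← pow_add, addEnergy_neg, ← sub_eq_add_neg] at this

end Vale.P036.EnergyBound
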